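import Vale.Agent.P310.Final

namespace Vale.Agent.Results.P310.TimeLowerBound

open Vale.Agent.P310 Asymptotics Filter

/-- Unconditional `n^{Ω(k)}` lower bound for deciding `k`-WL equivalence (the question Q1).
(1) There is a constant `c > 0` such that for every `k ≥ 2` every deterministic multitape Turing
machine deciding `k`-WL equivalence has worst-case running time at least `n ^ (c * k)` on pairs of
graphs with `n` vertices, for all large `n`.  (2) For large `k` every `c < 1 / 16` is such a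
constant.  (3) In particular no exponent `g k = o(k)` suffices. -/
theorem result :
    (∃ c : ℝ, 0 < c ∧ ∀ k : ℕ, 2 ≤ k → ∀ M : TM Bool, M.DecidesWL k →
      ∀ᶠ n : ℕ in atTop, (n : ℝ) ^ (c * k) ≤ (M.worstTime n : ℝ)) ∧
    (∀ c : ℝ, c < 1 / 16 → ∃ k₀ : ℕ, ∀ k ≥ k₀, ∀ M : TM Bool, M.DecidesWL k →
      ∀ᶠ n : ℕ in atTop, (n : ℝ) ^ (c * k) ≤ (M.worstTime n : ℝ)) ∧
    (∀ g : ℕ → ℝ, g =o[atTop] (fun k : ℕ => (k : ℝ)) →
      ∀ᶠ k : ℕ in atTop, ∀ M : TM Bool, M.DecidesWL k →
        ¬ ((fun n => (M.worstTime n : ℝ)) =O[atTop] fun n : ℕ => (n : ℝ) ^ g k)) :=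
  ⟨final_all, fun _ hc => final_large hc, final_littleO⟩

end Vale.Agent.Results.P310.TimeLowerBound
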